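import Vale.Agent.P215.R2.H743.Gap2

/-!
# P215: the complexity of the discs is zero or grows exponentially
-/

namespace Vale.Agent.Results.P215.ComplexityGap

open Vale.Agent.P215.H788 Vale.Agent.P215.H743

/-- Let `ψ` be a homomorphism from the fundamental group of the thickening of a capped grope to a
free group `F`.  A disc whose double point loops are mapped by `ψ` into the term number `d + 1` of
the derived series of `F` is killed by `ψ`, or the image of one of the double point loops has cyclic
length at least `4 * 3 ^ d`.  The same is true with the lower central series (`n + 1`) and with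
all homomorphisms from `F` to the symmetric group of degree `n` (`n`).  Consequently `F` is good if
and only if for every capped grope and every `ψ` there is a disc with shorter double point loops
for one `d` (or one `n`). -/
theorem result (X : Type) [DecidableEq X] :
    (∀ (G : CappedGrope) (ψ : Pi1 G →* FreeGroup X) (D : GDisc G),
      (∀ d : ℕ, MapsInto D ψ (derivedSeries (FreeGroup X) (d + 1)) →
        D.Kills ψ ∨ HasLongLoop D ψ (4 * 3 ^ d)) ∧
      (∀ n : ℕ, MapsInto D ψ ((⊤ : Subgroup (FreeGroup X)).lowerCentralSeries n) →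
        D.Kills ψ ∨ HasLongLoop D ψ (n + 1)) ∧
      (∀ n : ℕ, KillsPerm D ψ n → D.Kills ψ ∨ HasLongLoop D ψ n)) ∧
    [Good (FreeGroup X),
      ∀ (G : CappedGrope) (ψ : Pi1 G →* FreeGroup X), ∃ (d : ℕ) (D : GDisc G),
        MapsInto D ψ (derivedSeries (FreeGroup X) (d + 1)) ∧ ¬ HasLongLoop D ψ (4 * 3 ^ d),
      ∀ (G : CappedGrope) (ψ : Pi1 G →* FreeGroup X), ∃ (n : ℕ) (D : GDisc G),
        MapsInto D ψ ((⊤ : Subgroup (FreeGroup X)).lowerCentralSeries n) ∧
          ¬ HasLongLoop D ψ (n + 1),
      ∀ (G : CappedGrope) (ψ : Pi1 G →* FreeGroup X), ∃ (n : ℕ) (D : GDisc G),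
        KillsPerm D ψ n ∧ ¬ HasLongLoop D ψ n].TFAE :=
  ⟨fun _ ψ D => gap ψ D, good_tfae X⟩

end Vale.Agent.Results.P215.ComplexityGap
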