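import Vale.Agent.P215.R2.H460.Serve

/-!
# P215: if `F_2` is not good, no countable family of finite choices of discs serves the good groups
-/

namespace Vale.Agent.Results.P215.DiscChoices

open Vale.Agent.P215.H788 Vale.Agent.P215.R2.H460

/-- (1) Let `N₀` be a solvable group with `n` marked generators which maps onto `ℤ ≀ ℤ`, `U` an open
set around it, and let the choices `C k` of framed discs be finite.  Then `F_2` is good, or some
solvable group in `U` which maps onto `ℤ ≀ ℤ` is not good, or some good group in `U`, a limit of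
solvable groups which map onto `ℤ ≀ ℤ`, is served by none of the `C k`.
(2) If the solvable groups with `n` generators are good, there is a sequence of choices of one disc
such that each solvable group is served by one of them.
(3) If the solvable groups with two generators are good, the following are equivalent: `F_2` is
good; one choice of one disc serves all groups with two generators; each good group with two
generators is served by one of countably many finite choices; so are, for some `N₀` and `U` as in
(1), the good groups in `U` which are limits of solvable groups mapping onto `ℤ ≀ ℤ`.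
(4) For `n ≥ 2` there are such `N₀`. -/
theorem result :
    (∀ (n : ℕ) (N₀ : MarkedGroup n), Group.IsSolvable N₀.Grp → MapsOntoZwrZ N₀.Grp →
      ∀ U : Set (MarkedGroup n), IsOpen U → N₀ ∈ U →
      ∀ C : ℕ → DiscChoice n, (∀ k G ψ, (C k G ψ).Finite) →
      Good (FreeGroup (Fin 2)) ∨
        (∃ N ∈ U, Group.IsSolvable N.Grp ∧ MapsOntoZwrZ N.Grp ∧ ¬ Good N.Grp) ∨
        ∃ N ∈ U, Good N.Grp ∧
          N ∈ closure {M : MarkedGroup n | Group.IsSolvable M.Grp ∧ MapsOntoZwrZ M.Grp} ∧
          ∀ k, ¬ Serves (C k) N) ∧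
    (∀ n : ℕ, (∀ N : MarkedGroup n, Group.IsSolvable N.Grp → Good N.Grp) →
      ∃ C : ℕ → DiscChoice n, (∀ k G ψ, ∃ D, C k G ψ = {D}) ∧
        ∀ N : MarkedGroup n, Group.IsSolvable N.Grp → ∃ k, Serves (C k) N) ∧
    ((∀ N : MarkedGroup 2, Group.IsSolvable N.Grp → Good N.Grp) →
      List.TFAE [
        Good (FreeGroup (Fin 2)),
        ∃ C : DiscChoice 2, (∀ G ψ, ∃ D, C G ψ = {D}) ∧ ∀ N : MarkedGroup 2, Serves C N,
        ∃ C : ℕ → DiscChoice 2, (∀ k G ψ, (C k G ψ).Finite) ∧
          ∀ N : MarkedGroup 2, Good N.Grp → ∃ k, Serves (C k) N,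
        ∃ N₀ : MarkedGroup 2, Group.IsSolvable N₀.Grp ∧ MapsOntoZwrZ N₀.Grp ∧
          ∃ U : Set (MarkedGroup 2), IsOpen U ∧ N₀ ∈ U ∧
          ∃ C : ℕ → DiscChoice 2, (∀ k G ψ, (C k G ψ).Finite) ∧
          ∀ N ∈ U, Good N.Grp →
            N ∈ closure {M : MarkedGroup 2 | Group.IsSolvable M.Grp ∧ MapsOntoZwrZ M.Grp} →
            ∃ k, Serves (C k) N]) ∧
    (∀ n : ℕ, 2 ≤ n → ∃ N₀ : MarkedGroup n, Group.IsSolvable N₀.Grp ∧ MapsOntoZwrZ N₀.Grp) :=
  ⟨fun _ N₀ hs ho U hU hN C hC => exists_not_served N₀ hs ho U hU hN C hC,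
    fun _ h => exists_solvable_choice h, tfae_choices, fun _ hn => exists_base hn⟩

end Vale.Agent.Results.P215.DiscChoices
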