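import Vale.Agent.P215.R2.H460.Loc

/-!
# P215: the free group `F_2` is good if, near one solvable marked group which maps onto `ℤ ≀ ℤ`,
the good marked groups form an `F_σ` set
-/

namespace Vale.Agent.Results.P215.FsigmaCriterion

open Vale.Agent.P215.H788 Vale.Agent.P215.R2.H460 Topology

/-- (1) Let `N₀` be a solvable group with `n` marked generators which maps onto `ℤ ≀ ℤ`, and `U` an
open set around it.  If the good groups in `U` are the points of `U` in a countable union of closed
sets, then `F_2` is good, or some solvable group in `U` which maps onto `ℤ ≀ ℤ` is not good.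
(2) For `n ≥ 2` there are such `N₀`; if the good groups with `n` marked generators form an open set
or a countable union of closed sets, then `F_2` is good, or some solvable group with two generators
which maps onto `ℤ ≀ ℤ` is not good.
(3) If all marked groups near a group which maps onto `ℤ ≀ ℤ` are good, then `F_2` is good.
(4) Every `N₀` as in (1) is in a closed set `C` of marked groups in which the solvable groups are
dense and the groups which contain a free group of rank two are dense.
(5) For every `n` the good groups with `n` marked generators form a `G_δ` set. -/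
theorem result :
    (∀ (n : ℕ) (N₀ : MarkedGroup n), Group.IsSolvable N₀.Grp → MapsOntoZwrZ N₀.Grp →
      ∀ U : Set (MarkedGroup n), IsOpen U → N₀ ∈ U →
      ∀ S : ℕ → Set (MarkedGroup n), (∀ k, IsClosed (S k)) →
      U ∩ (⋃ k, S k) = U ∩ {N : MarkedGroup n | Good N.Grp} →
      Good (FreeGroup (Fin 2)) ∨
        ∃ N ∈ U, Group.IsSolvable N.Grp ∧ MapsOntoZwrZ N.Grp ∧ ¬ Good N.Grp) ∧
    (∀ n : ℕ, 2 ≤ n → (∃ N₀ : MarkedGroup n, Group.IsSolvable N₀.Grp ∧ MapsOntoZwrZ N₀.Grp) ∧
      ((IsOpen {N : MarkedGroup n | Good N.Grp} ∨ ∃ S : ℕ → Set (MarkedGroup n),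
        (∀ k, IsClosed (S k)) ∧ (⋃ k, S k) = {N : MarkedGroup n | Good N.Grp}) →
      Good (FreeGroup (Fin 2)) ∨
        ∃ N : MarkedGroup 2, Group.IsSolvable N.Grp ∧ MapsOntoZwrZ N.Grp ∧ ¬ Good N.Grp)) ∧
    (∀ (n : ℕ) (N₀ : MarkedGroup n), MapsOntoZwrZ N₀.Grp →
      {N : MarkedGroup n | Good N.Grp} ∈ 𝓝 N₀ → Good (FreeGroup (Fin 2))) ∧
    (∀ (n : ℕ) (N₀ : MarkedGroup n), Group.IsSolvable N₀.Grp → MapsOntoZwrZ N₀.Grp →
      ∃ C : Set (MarkedGroup n), IsClosed C ∧ N₀ ∈ C ∧
        C ⊆ closure {N | N ∈ C ∧ Group.IsSolvable N.Grp} ∧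
        C ⊆ closure {N | N ∈ C ∧ ∃ f : FreeGroup (Fin 2) →* N.Grp, Function.Injective f}) ∧
    (∀ n : ℕ, IsGδ {N : MarkedGroup n | Good N.Grp}) :=
  ⟨fun _ N₀ hs ho U hU hN S hS h => good_of_local N₀ hs ho U hU hN S hS h,
    fun _ hn => ⟨exists_base hn, good_of_global hn⟩, fun _ N₀ ho h => good_of_mem_nhds N₀ ho h,
    fun _ N₀ hs ho => exists_closed_at N₀ hs ho, isGδ_good⟩

end Vale.Agent.Results.P215.FsigmaCriterion
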