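import Vale.Agent.P215.R2.H743.Classes
import Vale.Agent.P215.R2.H652.Main

/-!
# P215: good groups and uniformity of the discs over classes of groups
-/

namespace Vale.Agent.Results.P215.UniformDiscs

open Vale.Agent.P215.H788 Vale.Agent.P215.H743 Vale.Agent.P215.R2.H652 Filter

/-- (1) For an arbitrary class `C` of groups: if all groups are good, one disc in each thickening
serves all homomorphisms to groups in `C`; then finitely many discs do; and this is the same as: for
each sequence of homomorphisms to groups in `C` one disc serves infinitely many of them.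
(2) The zero-one law for a class `K` of finite groups which contains the trivial group and is closed
under isomorphism and finite products, and six equivalent forms of uniformity.
(3) The finite `p`-groups are such a class, and satisfy no law.
(4) If a class `K` satisfies no law, a homomorphism `ψ` from the fundamental group of a thickening
to a free group kills a disc if and only if finitely many discs serve all its compositions with
homomorphisms to groups in `K`.
(5) If finitely many discs in each thickening serve all homomorphisms to groups in `K`, then `K`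
satisfies a law or all free groups are good, and the groups discriminated by `K` are good.
(6) All groups satisfying given laws are good if and only if one disc in each thickening serves all
homomorphisms to them.
(7) The zero-one law for random permutations: a homomorphism `ψ` to a free group of finite rank
kills a disc of the list `L`, or at most the proportion `C * (n!) ^ (-c)` of its compositions with
homomorphisms to the symmetric group of degree `n` does; and (8) forms of the question whether the
free group of rank two is good. -/
theorem result :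
    (∀ C : (Q : Type) → [Group Q] → Prop,
      ((∀ (Γ : Type) [Group Γ], Good Γ) → OneDisc C) ∧
      (OneDisc C → FinitelyMany C) ∧
      (FinitelyMany C ↔ Sequences C)) ∧
    (∀ K : (Q : Type) → [Group Q] → Prop, GroupClass K →
      ∀ ε : ℕ → ℝ, (∀ m, 0 < ε m ∧ ε m < 1) →
      ∃ (Q : ℕ → Type) (_ : ∀ m, Group (Q m)), (∀ m, K (Q m)) ∧
        (∀ (G : CappedGrope) (D : GDisc G),
          (∀ (R : Type) [Group R], K R → ∀ φ : Pi1 G →* R, D.Kills φ) ∨
          ∀ᶠ m in atTop, proportion D (Q m) ≤ ε m) ∧
        [OneDisc K,
          FinitelyMany K,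
          Sequences K,
          ∀ G : CappedGrope, ∃ D : GDisc G, ∃ᶠ m in atTop, ε m < proportion D (Q m),
          ∀ (R : ℕ → Type) [∀ i, Group (R i)], (∀ i, K (R i)) → Good (∀ i, R i),
          ∀ (Γ : Type) [Group Γ], Residually K Γ → Good Γ].TFAE) ∧
    (∀ (p : ℕ) [Fact p.Prime], GroupClass (IsFinitePGroup p) ∧ NoLaw (IsFinitePGroup p)) ∧
    (∀ K : (Q : Type) → [Group Q] → Prop, NoLaw K →
      ∀ (X : Type) (G : CappedGrope) (ψ : Pi1 G →* FreeGroup X),
        (∃ D : GDisc G, D.Kills ψ) ↔ ∃ L : List (GDisc G), ∀ (Q : Type) [Group Q], K Q →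
          ∀ α : FreeGroup X →* Q, ∃ D ∈ L, D.Kills (α.comp ψ)) ∧
    (∀ K : (Q : Type) → [Group Q] → Prop, FinitelyMany K →
      ((∃ w : FreeGroup ℕ, w ≠ 1 ∧
          ∀ (Q : Type) [Group Q], K Q → ∀ α : FreeGroup ℕ →* Q, α w = 1) ∨
        ∀ X : Type, Good (FreeGroup X)) ∧
      ∀ (Δ : Type) [Group Δ], Discriminates K Δ → Good Δ) ∧
    (∀ V : Set (FreeGroup ℕ),
      (∀ (Γ : Type) [Group Γ], Satisfies V Γ → Good Γ) ↔ OneDisc (Satisfies V)) ∧
    (∀ (X : Type) [Finite X] (G : CappedGrope) (ψ : Pi1 G →* FreeGroup X) (L : List (GDisc G)),
      (∃ D ∈ L, D.Kills ψ) ∨ FactSmall fun n => permProportion ψ L n) ∧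
    [Good (FreeGroup (Fin 2)),
      ∀ X : Type, Good (FreeGroup X),
      ∀ (G : CappedGrope) (ψ : Pi1 G →* FreeGroup (Fin 2)), ∃ L : List (GDisc G),
        ∀ (n : ℕ) (α : FreeGroup (Fin 2) →* Equiv.Perm (Fin n)), ∃ D ∈ L, D.Kills (α.comp ψ),
      ∀ (G : CappedGrope) (ψ : Pi1 G →* FreeGroup (Fin 2)), ∃ L : List (GDisc G),
        ¬ FactSmall fun n => permProportion ψ L n].TFAE := by
  refine ⟨fun C => ⟨fun h => oneDisc_of_good h, fun h => finitelyMany_of_oneDisc h,
    ⟨fun h => sequences_of_finitelyMany h, fun h => finitelyMany_of_sequences h⟩⟩,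
    fun K hK ε hε => zero_one_tfae hK ε hε,
    fun p _ => ⟨groupClass_pGroup p, noLaw_pGroup p⟩, ?_⟩
  exact part652

end Vale.Agent.Results.P215.UniformDiscs
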